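import Mathlib

namespace Vale.Agent.Lib.P252

/-- The Hessian matrix of `u` at `x`: the entry `(i, j)` is the second partial derivative
`∂_j ∂_i u (x)` in the standard coordinates of `ℝ^n`. -/
noncomputable def hess {n : ℕ} (u : EuclideanSpace ℝ (Fin n) → ℝ) (x : EuclideanSpace ℝ (Fin n)) :
    Matrix (Fin n) (Fin n) ℝ :=
  fun i j => fderiv ℝ (fun y => fderiv ℝ u y (EuclideanSpace.single i 1)) x
    (EuclideanSpace.single j 1)

/-- The function `w = (det D^2 u)^(-(n+1)/(n+2))` of the affine maximal equation. -/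
noncomputable def amWeight {n : ℕ} (u : EuclideanSpace ℝ (Fin n) → ℝ)
    (x : EuclideanSpace ℝ (Fin n)) : ℝ :=
  (hess u x).det ^ (-((n : ℝ) + 1) / ((n : ℝ) + 2))

/-- The left side of the affine maximal equation (AM) at `x`: the sum over `i, j` of
`U^{ij} ∂_{ij} w`, where `U^{ij} = det(D^2 u) (D^2 u)^{-1}_{ij}` and `w` is `amWeight u`. -/
noncomputable def amOp {n : ℕ} (u : EuclideanSpace ℝ (Fin n) → ℝ)
    (x : EuclideanSpace ℝ (Fin n)) : ℝ :=
  ∑ i, ∑ j, ((hess u x).det • (hess u x)⁻¹) i j * hess (amWeight u) x i j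

end Vale.Agent.Lib.P252
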