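import Vale.Agent.Lib.P252.Defs

namespace Vale.Agent.Lib.P252

open scoped RealInnerProductSpace

variable {n : ℕ}

lemma hasFDerivAt_radial (g : ℝ → ℝ) (g' : ℝ) (x : EuclideanSpace ℝ (Fin n))
    (hg : HasDerivAt g g' (‖x‖ ^ 2)) :
    HasFDerivAt (fun y : EuclideanSpace ℝ (Fin n) => g (‖y‖ ^ 2)) ((2 * g') • innerSL ℝ x) x := by
  have h1 := (hasStrictFDerivAt_norm_sq x).hasFDerivAt
  have h2 := hg.comp_hasFDerivAt x h1
  have h3 : HasFDerivAt (fun y : EuclideanSpace ℝ (Fin n) => g (‖y‖ ^ 2))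
      (g' • (2 • innerSL ℝ x)) x := h2
  refine h3.congr_fderiv ?_
  ext v
  simp
  ring

lemma fderiv_radial_single (g : ℝ → ℝ) (g' : ℝ) (x : EuclideanSpace ℝ (Fin n))
    (hg : HasDerivAt g g' (‖x‖ ^ 2)) (i : Fin n) :
    fderiv ℝ (fun y : EuclideanSpace ℝ (Fin n) => g (‖y‖ ^ 2)) x (EuclideanSpace.single i 1)
      = 2 * g' * x i := by
  rw [(hasFDerivAt_radial g g' x hg).fderiv]
  simp [EuclideanSpace.inner_single_right]

lemma hess_radial (g g' : ℝ → ℝ) (g'' : ℝ) (x : EuclideanSpace ℝ (Fin n))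
    (h1 : ∀ᶠ t in nhds (‖x‖ ^ 2), HasDerivAt g (g' t) t)
    (h2 : HasDerivAt g' g'' (‖x‖ ^ 2)) :
    hess (fun y : EuclideanSpace ℝ (Fin n) => g (‖y‖ ^ 2)) x
      = fun i j => 2 * g' (‖x‖ ^ 2) * (if i = j then 1 else 0) + 4 * g'' * x i * x j := by
  funext i j
  unfold hess
  have hcont : Filter.Tendsto (fun y : EuclideanSpace ℝ (Fin n) => ‖y‖ ^ 2) (nhds x)
      (nhds (‖x‖ ^ 2)) := (continuous_norm.pow 2).continuousAt
  have hev : (fun y : EuclideanSpace ℝ (Fin n) =>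
      fderiv ℝ (fun z : EuclideanSpace ℝ (Fin n) => g (‖z‖ ^ 2)) y (EuclideanSpace.single i 1))
      =ᶠ[nhds x] fun y => 2 * g' (‖y‖ ^ 2) * y i := by
    filter_upwards [hcont.eventually h1] with y hy
    exact fderiv_radial_single g (g' (‖y‖ ^ 2)) y hy i
  rw [hev.fderiv_eq]
  have hA : HasFDerivAt (fun y : EuclideanSpace ℝ (Fin n) => g' (‖y‖ ^ 2))
      ((2 * g'') • innerSL ℝ x) x := hasFDerivAt_radial g' g'' x h2
  have hB : HasFDerivAt (fun y : EuclideanSpace ℝ (Fin n) => y i)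
      (EuclideanSpace.proj i : EuclideanSpace ℝ (Fin n) →L[ℝ] ℝ) x :=
    (EuclideanSpace.proj i : EuclideanSpace ℝ (Fin n) →L[ℝ] ℝ).hasFDerivAt
  have hC : HasFDerivAt (fun y : EuclideanSpace ℝ (Fin n) => 2 * g' (‖y‖ ^ 2) * y i) _ x :=
    (hA.const_mul 2).mul hB
  rw [hC.fderiv]
  simp [EuclideanSpace.inner_single_right]
  ring

open Matrix


/-- the matrix `a I + b x xᵀ` -/
def rk1 (a b : ℝ) (x : Fin n → ℝ) : Matrix (Fin n) (Fin n) ℝ :=
  fun i j => a * (if i = j then 1 else 0) + b * x i * x j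

lemma rk1_eq (a b : ℝ) (x : Fin n → ℝ) (ha : a ≠ 0) :
    rk1 a b x = a • (1 + replicateCol Unit ((b / a) • x) * replicateRow Unit x) := by
  ext i j
  by_cases h : i = j
  · simp [rk1, Matrix.mul_apply, h]
    field_simp
  · simp [rk1, Matrix.mul_apply, h]
    field_simp

lemma det_rk1 (a b : ℝ) (x : Fin n → ℝ) (ha : a ≠ 0) :
    (rk1 a b x).det = a ^ n * (1 + b / a * ∑ i, x i ^ 2) := by
  rw [rk1_eq a b x ha, Matrix.det_smul, det_one_add_replicateCol_mul_replicateRow]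
  simp [dotProduct, Finset.mul_sum]
  left
  refine Finset.sum_congr rfl fun i _ => ?_
  ring

lemma inv_rk1 (a b : ℝ) (x : Fin n → ℝ) (ha : a ≠ 0) (hab : a + b * ∑ i, x i ^ 2 ≠ 0) :
    (rk1 a b x)⁻¹ = rk1 (a⁻¹) (-(b / (a * (a + b * ∑ i, x i ^ 2)))) x := by
  apply Matrix.inv_eq_right_inv
  ext i j
  simp only [Matrix.mul_apply, rk1, Matrix.one_apply]
  have h1 : ∀ k : Fin n, (a * (if i = k then 1 else 0) + b * x i * x k) *
      (a⁻¹ * (if k = j then 1 else 0) + -(b / (a * (a + b * ∑ i, x i ^ 2))) * x k * x j)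
      = (if i = k then (if k = j then 1 else 0) else 0)
        + (if i = k then -(b / (a + b * ∑ i, x i ^ 2)) * x k * x j else 0)
        + (if k = j then b / a * x i * x k else 0)
        + (-(b ^ 2 / (a * (a + b * ∑ i, x i ^ 2))) * x i * x j) * x k ^ 2 := by
    intro k
    split_ifs <;> field_simp <;> ring
  simp only [h1, Finset.sum_add_distrib, ← Finset.mul_sum, Finset.sum_ite_eq, Finset.sum_ite_eq',
    Finset.mem_univ, if_true]
  set s := ∑ i, x i ^ 2 with hs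
  by_cases hij : i = j
  · subst hij
    simp
    field_simp
    ring
  · simp [hij]
    field_simp
    ring

lemma contract_rk1 (a b c d : ℝ) (x : Fin n → ℝ) :
    ∑ i, ∑ j, rk1 a b x i j * rk1 c d x i j
      = a * c * n + (a * d + b * c) * (∑ i, x i ^ 2) + b * d * (∑ i, x i ^ 2) ^ 2 := by
  have h1 : ∀ i j : Fin n, rk1 a b x i j * rk1 c d x i j
      = (if i = j then a * c + (a * d + b * c) * x i * x j else 0)
        + b * d * (x i ^ 2 * x j ^ 2) := by
    intro i j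
    unfold rk1
    split_ifs <;> ring
  simp only [h1, Finset.sum_add_distrib, Finset.sum_ite_eq, Finset.mem_univ, if_true]
  simp only [← Finset.mul_sum, ← Finset.sum_mul, Finset.sum_const, Finset.card_univ,
    Fintype.card_fin, nsmul_eq_mul]
  have : ∑ i, (a * d + b * c) * x i * x i = (a * d + b * c) * ∑ i, x i ^ 2 := by
    rw [Finset.mul_sum]; refine Finset.sum_congr rfl fun i _ => by ring
  rw [this]
  ring

lemma const_on_convex {f : ℝ → ℝ} {S : Set ℝ} (hS : Convex ℝ S)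
    (h : ∀ x ∈ S, HasDerivAt f 0 x) {x y : ℝ} (hx : x ∈ S) (hy : y ∈ S) : f y = f x := by
  have := Convex.norm_image_sub_le_of_norm_hasDerivWithin_le (f := f) (f' := fun _ => 0)
    (C := 0) (s := S) (fun z hz => (h z hz).hasDerivWithinAt) (by simp) hS hx hy
  simp at this
  linarith [sub_eq_zero.mp this]

/-- The ODE core of the radial Bernstein theorem. -/
lemma radial_core (m : ℕ) (e : ℝ) (he : e ≠ 0) (φ : ℝ → ℝ)
    (S : Set ℝ) (hφ : ∀ s ∈ S, ContDiffAt ℝ 4 φ s)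
    (hS : Convex ℝ S) (h0 : (0 : ℝ) ∈ S) (hS0 : ∀ s ∈ S, 0 ≤ s)
    (hp : ∀ s ∈ S, 0 < deriv φ s)
    (hpq : ∀ s ∈ S, 0 < deriv φ s + 2 * deriv (deriv φ) s * s)
    (hE : ∀ s ∈ S,
      deriv (fun t => ((2 * deriv φ t) ^ (m + 1) * (2 * deriv φ t + 4 * deriv (deriv φ) t * t)) ^ e) s
          * (((m : ℝ) + 2) * deriv φ s + 2 * ((m : ℝ) + 1) * deriv (deriv φ) s * s)
        + 2 * s * deriv φ s *
          deriv (deriv (fun t =>
            ((2 * deriv φ t) ^ (m + 1) * (2 * deriv φ t + 4 * deriv (deriv φ) t * t)) ^ e)) s = 0) :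
    ∀ s ∈ S, φ s = deriv φ 0 * s + φ 0 := by
  set p : ℝ → ℝ := deriv φ with hp_def
  set q : ℝ → ℝ := deriv (deriv φ) with hq_def
  set D : ℝ → ℝ := fun t => (2 * p t) ^ (m + 1) * (2 * p t + 4 * q t * t) with hD_def
  set ω : ℝ → ℝ := fun t => D t ^ e with hω_def
  have hp3 : ∀ s ∈ S, ContDiffAt ℝ 3 p s := fun s hs =>
    (hφ s hs).derivWithin (by norm_num)
  have hq2 : ∀ s ∈ S, ContDiffAt ℝ 2 q s := fun s hs =>
    (hp3 s hs).derivWithin (by norm_num)
  have hφd : ∀ s ∈ S, HasDerivAt φ (p s) s := fun s hs =>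
    ((hφ s hs).differentiableAt (by norm_num)).hasDerivAt
  have hpd : ∀ s ∈ S, HasDerivAt p (q s) s := fun s hs =>
    ((hp3 s hs).differentiableAt (by norm_num)).hasDerivAt
  have hD2 : ∀ s ∈ S, ContDiffAt ℝ 2 D s := by
    intro s hs
    have hp2 : ContDiffAt ℝ 2 p s := (hp3 s hs).of_le (by norm_num)
    exact ((contDiffAt_const.mul hp2).pow _).mul
      ((contDiffAt_const.mul hp2).add ((contDiffAt_const.mul (hq2 s hs)).mul contDiffAt_id))
  have hDpos : ∀ s ∈ S, 0 < D s := by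
    intro s hs
    have h1 := hp s hs
    have h2 := hpq s hs
    have : 0 < (2 * p s) ^ (m + 1) := by positivity
    have h3 : 0 < 2 * p s + 4 * q s * s := by linarith
    exact mul_pos this h3
  have hω2 : ∀ s ∈ S, ContDiffAt ℝ 2 ω s := fun s hs =>
    (hD2 s hs).rpow_const_of_ne (hDpos s hs).ne'
  have hωd : ∀ s ∈ S, HasDerivAt ω (deriv ω s) s := fun s hs =>
    ((hω2 s hs).differentiableAt (by norm_num)).hasDerivAt
  have hωdd : ∀ s ∈ S, HasDerivAt (deriv ω) (deriv (deriv ω) s) s := by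
    intro s hs
    have h1 : ContDiffAt ℝ 1 (deriv ω) s := (hω2 s hs).derivWithin (by norm_num)
    exact (h1.differentiableAt (by norm_num)).hasDerivAt
  -- first integral
  have hJ : ∀ s ∈ S, HasDerivAt (fun t => (deriv ω t) ^ 2 * t ^ (m + 2) * (p t ^ 2) ^ (m + 1)) 0 s := by
    intro s hs
    have h1 := ((hωdd s hs).pow 2).mul ((hasDerivAt_id s).pow (m + 2))
    have h2 := h1.mul (((hpd s hs).pow 2).pow (m + 1))
    refine h2.congr_deriv ?_
    have hps : p s ≠ 0 := (hp s hs).ne'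
    have hEs := hE s hs
    apply mul_left_cancel₀ hps
    simp only [id, Pi.pow_apply, Pi.mul_apply, show m + 2 - 1 = m + 1 from rfl,
      show m + 1 - 1 = m from rfl, show 2 - 1 = 1 from rfl]
    push_cast
    linear_combination (deriv ω s * s ^ (m + 1) * (p s ^ 2) ^ (m + 1)) * hEs
  have hJ0 : ∀ s ∈ S, (deriv ω s) ^ 2 * s ^ (m + 2) * (p s ^ 2) ^ (m + 1) = 0 := by
    intro s hs
    have := const_on_convex hS hJ h0 hs
    simpa using this
  have hω' : ∀ s ∈ S, deriv ω s = 0 := by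
    intro s hs
    rcases (hS0 s hs).eq_or_lt with h | h
    · have hEs := hE s hs
      rw [← h] at hEs ⊢
      have hp0 := hp 0 h0
      have : deriv ω 0 * (((m : ℝ) + 2) * p 0) = 0 := by simpa using hEs
      rcases mul_eq_zero.mp this with h1 | h1
      · exact h1
      · exfalso
        have : 0 < ((m : ℝ) + 2) * p 0 := by positivity
        linarith
    · have h1 := hJ0 s hs
      have h2 : 0 < s ^ (m + 2) := by positivity
      have h3 : 0 < (p s ^ 2) ^ (m + 1) := by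
        have := hp s hs
        positivity
      have h4 : (deriv ω s) ^ 2 = 0 := by
        rcases mul_eq_zero.mp h1 with h5 | h5
        · rcases mul_eq_zero.mp h5 with h6 | h6
          · exact h6
          · exact absurd h6 h2.ne'
        · exact absurd h5 h3.ne'
      exact pow_eq_zero_iff (by norm_num) |>.mp h4
  have hωc : ∀ s ∈ S, ω s = ω 0 := by
    intro s hs
    refine const_on_convex hS (fun x hx => ?_) h0 hs
    have := hωd x hx
    rwa [hω' x hx] at this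
  have hDc : ∀ s ∈ S, D s = D 0 := by
    intro s hs
    have h1 := hωc s hs
    exact Real.rpow_left_injOn he (hDpos s hs).le (hDpos 0 h0).le h1
  have hp0 := hp 0 h0
  have hDeq : ∀ s ∈ S, p s ^ (m + 1) * (p s + 2 * q s * s) - p 0 ^ (m + 2) = 0 := by
    intro s hs
    have h1 := hDc s hs
    simp only [hD_def] at h1
    have h2 : (2 : ℝ) ^ (m + 2) * (p s ^ (m + 1) * (p s + 2 * q s * s) - p 0 ^ (m + 2)) = 0 := by
      have : (2 * p s) ^ (m + 1) * (2 * p s + 4 * q s * s)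
          - (2 * p 0) ^ (m + 1) * (2 * p 0 + 4 * q 0 * 0) = 0 := by linarith
      linear_combination this
    rcases mul_eq_zero.mp h2 with h3 | h3
    · exact absurd h3 (by positivity)
    · exact h3
  have hK : ∀ s ∈ S, HasDerivAt (fun t => t ^ (m + 2) * (p t ^ (m + 2) - p 0 ^ (m + 2)) ^ 2) 0 s := by
    intro s hs
    have h1 := ((hasDerivAt_id s).pow (m + 2)).mul ((((hpd s hs).pow (m + 2)).sub_const (p 0 ^ (m + 2))).pow 2)
    refine h1.congr_deriv ?_
    have h2 := hDeq s hs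
    simp only [id, Pi.pow_apply, show m + 2 - 1 = m + 1 from rfl, show 2 - 1 = 1 from rfl]
    push_cast
    linear_combination (((m : ℝ) + 2) * s ^ (m + 1) * (p s ^ (m + 2) - p 0 ^ (m + 2))) * h2
  have hpc : ∀ s ∈ S, p s = p 0 := by
    intro s hs
    rcases (hS0 s hs).eq_or_lt with h | h
    · rw [← h]
    · have h1 := const_on_convex hS hK h0 hs
      have h2 : s ^ (m + 2) * (p s ^ (m + 2) - p 0 ^ (m + 2)) ^ 2 = 0 := by
        rw [h1]; simp
      have h3 : 0 < s ^ (m + 2) := by positivity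
      have h4 : (p s ^ (m + 2) - p 0 ^ (m + 2)) ^ 2 = 0 := by
        rcases mul_eq_zero.mp h2 with h5 | h5
        · exact absurd h5 h3.ne'
        · exact h5
      have h5 : p s ^ (m + 2) = p 0 ^ (m + 2) := by
        have := pow_eq_zero_iff (n := 2) (by norm_num) |>.mp h4
        linarith
      exact (pow_left_inj₀ (hp s hs).le hp0.le (by omega)).mp h5
  intro s hs
  have h1 : ∀ x ∈ S, HasDerivAt (fun t => φ t - p 0 * t) 0 x := by
    intro x hx
    have := (hφd x hx).sub ((hasDerivAt_id x).const_mul (p 0))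
    refine this.congr_deriv ?_
    rw [hpc x hx]; ring
  have h2 := const_on_convex hS h1 h0 hs
  linarith

lemma hess_congr {n : ℕ} {f g : EuclideanSpace ℝ (Fin n) → ℝ} {x : EuclideanSpace ℝ (Fin n)}
    (h : f =ᶠ[nhds x] g) : hess f x = hess g x := by
  funext i j
  unfold hess
  have h1 : (fun y => fderiv ℝ f y (EuclideanSpace.single i 1))
      =ᶠ[nhds x] (fun y => fderiv ℝ g y (EuclideanSpace.single i 1)) := by
    filter_upwards [h.fderiv (𝕜 := ℝ)] with y hy
    rw [hy]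
  rw [h1.fderiv_eq]

lemma mem_eball_zero_iff {n : ℕ} (x : EuclideanSpace ℝ (Fin n)) (R : ENNReal) :
    x ∈ Metric.eball (0 : EuclideanSpace ℝ (Fin n)) R ↔ ENNReal.ofReal ‖x‖ < R := by
  rw [Metric.mem_eball, edist_zero_right, ofReal_norm]

lemma norm_single_sqrt {n : ℕ} (i : Fin n) (s : ℝ) :
    ‖(EuclideanSpace.single i (Real.sqrt s) : EuclideanSpace ℝ (Fin n))‖ = Real.sqrt s := by
  simp [abs_of_nonneg (Real.sqrt_nonneg s)]

lemma sum_sq_eq_norm_sq {n : ℕ} (x : EuclideanSpace ℝ (Fin n)) : ∑ i, x i ^ 2 = ‖x‖ ^ 2 :=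
  (EuclideanSpace.real_norm_sq_eq x).symm

theorem radial_bernstein (n : ℕ) (hn : 2 ≤ n) (R : ENNReal) (φ : ℝ → ℝ)
    (hφ : ∀ x ∈ Metric.eball (0 : EuclideanSpace ℝ (Fin n)) R, ContDiffAt ℝ 4 φ (‖x‖ ^ 2))
    (hpos : ∀ x ∈ Metric.eball (0 : EuclideanSpace ℝ (Fin n)) R,
      (hess (fun y : EuclideanSpace ℝ (Fin n) => φ (‖y‖ ^ 2)) x).PosDef)
    (hAM : ∀ x ∈ Metric.eball (0 : EuclideanSpace ℝ (Fin n)) R,
      amOp (fun y : EuclideanSpace ℝ (Fin n) => φ (‖y‖ ^ 2)) x = 0) :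
    ∃ a c : ℝ, 0 < a ∧ ∀ x ∈ Metric.eball (0 : EuclideanSpace ℝ (Fin n)) R,
      φ (‖x‖ ^ 2) = a * ‖x‖ ^ 2 + c := by
  obtain ⟨m, rfl⟩ : ∃ m, n = m + 2 := ⟨n - 2, by omega⟩
  set E := EuclideanSpace ℝ (Fin (m + 2)) with hE_def
  set u : E → ℝ := fun y => φ (‖y‖ ^ 2) with hu
  set p : ℝ → ℝ := deriv φ with hp_def
  set q : ℝ → ℝ := deriv (deriv φ) with hq_def
  set e : ℝ := -(((m + 2 : ℕ) : ℝ) + 1) / (((m + 2 : ℕ) : ℝ) + 2) with he_def
  have he : e ≠ 0 := by
    rw [he_def]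
    have h1 : (0 : ℝ) < ((m + 2 : ℕ) : ℝ) + 1 := by positivity
    have h2 : (0 : ℝ) < ((m + 2 : ℕ) : ℝ) + 2 := by positivity
    exact div_ne_zero (by linarith) h2.ne'
  have hp3 : ∀ t, ContDiffAt ℝ 4 φ t → ContDiffAt ℝ 3 p t := fun t ht =>
    ht.derivWithin (by norm_num)
  have hq2 : ∀ t, ContDiffAt ℝ 4 φ t → ContDiffAt ℝ 2 q t := fun t ht =>
    (hp3 t ht).derivWithin (by norm_num)
  have hφd : ∀ t, ContDiffAt ℝ 4 φ t → HasDerivAt φ (p t) t := fun t ht =>
    (ht.differentiableAt (by norm_num)).hasDerivAt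
  have hpd : ∀ t, ContDiffAt ℝ 4 φ t → HasDerivAt p (q t) t := fun t ht =>
    ((hp3 t ht).differentiableAt (by norm_num)).hasDerivAt
  have hnorm : ∀ x : E, Filter.Tendsto (fun y : E => ‖y‖ ^ 2) (nhds x) (nhds (‖x‖ ^ 2)) :=
    fun x => (continuous_norm.pow 2).continuousAt
  -- Hessian of u
  have H1 : ∀ x : E, ContDiffAt ℝ 4 φ (‖x‖ ^ 2) →
      hess u x = rk1 (2 * p (‖x‖ ^ 2)) (4 * q (‖x‖ ^ 2)) x := by
    intro x hx
    have h1 : ∀ᶠ t in nhds (‖x‖ ^ 2), HasDerivAt φ (p t) t := by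
      filter_upwards [hx.eventually (by norm_num)] with t ht
      exact hφd t ht
    rw [hu, hess_radial φ p (q (‖x‖ ^ 2)) x h1 (hpd _ hx)]
    rfl
  set D : ℝ → ℝ := fun t => (2 * p t) ^ (m + 1) * (2 * p t + 4 * q t * t) with hD_def
  set ω : ℝ → ℝ := fun t => D t ^ e with hω_def
  have hD2 : ∀ t, ContDiffAt ℝ 4 φ t → ContDiffAt ℝ 2 D t := by
    intro t ht
    have hp2 : ContDiffAt ℝ 2 p t := (hp3 t ht).of_le (by norm_num)
    exact ((contDiffAt_const.mul hp2).pow _).mul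
      ((contDiffAt_const.mul hp2).add ((contDiffAt_const.mul (hq2 t ht)).mul contDiffAt_id))
  -- the weight is radial near points where p ≠ 0
  have H2 : ∀ x : E, ContDiffAt ℝ 4 φ (‖x‖ ^ 2) → p (‖x‖ ^ 2) ≠ 0 →
      amWeight u =ᶠ[nhds x] fun y => ω (‖y‖ ^ 2) := by
    intro x hxc hx
    have hcont : ContinuousAt (fun y : E => p (‖y‖ ^ 2)) x :=
      ContinuousAt.comp (f := fun y : E => ‖y‖ ^ 2) (g := p) (hp3 _ hxc).continuousAt (hnorm x)
    filter_upwards [hcont.eventually_ne hx, (hnorm x).eventually (hxc.eventually (by norm_num))]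
      with y hy hyc
    unfold amWeight
    rw [H1 y hyc, det_rk1 _ _ _ (mul_ne_zero two_ne_zero hy), sum_sq_eq_norm_sq]
    simp only [hω_def, hD_def, he_def]
    congr 1
    field_simp
    ring
  by_cases h0R : (0 : E) ∈ Metric.eball (0 : E) R
  swap
  · refine ⟨1, 0, one_pos, fun x hx => ?_⟩
    exfalso
    apply h0R
    rw [mem_eball_zero_iff] at hx ⊢
    refine lt_of_le_of_lt ?_ hx
    simp
  set S : Set ℝ := {s | 0 ≤ s ∧
    (EuclideanSpace.single (0 : Fin (m + 2)) (Real.sqrt s) : E) ∈ Metric.eball (0 : E) R} with hS_def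
  have hS0 : ∀ s ∈ S, 0 ≤ s := fun s hs => hs.1
  have h0S : (0 : ℝ) ∈ S := by
    refine ⟨le_rfl, ?_⟩
    rw [mem_eball_zero_iff, norm_single_sqrt, Real.sqrt_zero]
    rw [mem_eball_zero_iff, norm_zero] at h0R
    exact h0R
  have hSconv : Convex ℝ S := by
    apply Set.OrdConnected.convex
    refine ⟨fun s₁ hs₁ s₂ hs₂ s hs => ⟨hs₁.1.trans hs.1, ?_⟩⟩
    have h2 := hs₂.2
    rw [mem_eball_zero_iff, norm_single_sqrt] at h2 ⊢
    exact lt_of_le_of_lt (ENNReal.ofReal_le_ofReal (Real.sqrt_le_sqrt hs.2)) h2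
  -- points realising s
  have hxs : ∀ s ∈ S, ‖(EuclideanSpace.single (0 : Fin (m + 2)) (Real.sqrt s) : E)‖ ^ 2 = s := by
    intro s hs
    rw [norm_single_sqrt, Real.sq_sqrt hs.1]
  have hφS : ∀ s ∈ S, ContDiffAt ℝ 4 φ s := by
    intro s hs
    have := hφ _ hs.2
    rwa [hxs s hs] at this
  have hp : ∀ s ∈ S, 0 < p s := by
    intro s hs
    have h1 := (hpos _ hs.2).diag_pos (i := (1 : Fin (m + 2)))
    rw [H1 _ (hφ _ hs.2), hxs s hs] at h1
    simp [rk1] at h1
    exact h1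
  have hpq : ∀ s ∈ S, 0 < p s + 2 * q s * s := by
    intro s hs
    have h1 := (hpos _ hs.2).diag_pos (i := (0 : Fin (m + 2)))
    rw [H1 _ (hφ _ hs.2), hxs s hs] at h1
    simp [rk1] at h1
    have h2 : Real.sqrt s * Real.sqrt s = s := Real.mul_self_sqrt hs.1
    have h3 : 4 * q s * Real.sqrt s * Real.sqrt s = 4 * q s * s := by rw [mul_assoc, h2]
    linarith
  have hDpos : ∀ s ∈ S, 0 < D s := by
    intro s hs
    have h1 := hp s hs
    have h2 := hpq s hs
    have : 0 < (2 * p s) ^ (m + 1) := by positivity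
    have h3 : 0 < 2 * p s + 4 * q s * s := by linarith
    exact mul_pos this h3
  have hω2 : ∀ s ∈ S, ContDiffAt ℝ 2 ω s := fun s hs =>
    (hD2 s (hφS s hs)).rpow_const_of_ne (hDpos s hs).ne'
  have hEq : ∀ s ∈ S, deriv ω s * (((m : ℝ) + 2) * p s + 2 * ((m : ℝ) + 1) * q s * s)
      + 2 * s * p s * deriv (deriv ω) s = 0 := by
    intro s hs
    set x : E := EuclideanSpace.single (0 : Fin (m + 2)) (Real.sqrt s) with hx_def
    have hxn : ‖x‖ ^ 2 = s := hxs s hs
    have hps := hp s hs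
    have hpqs := hpq s hs
    have hAMx := hAM x hs.2
    have hxc : ContDiffAt ℝ 4 φ (‖x‖ ^ 2) := hφ x hs.2
    have hw : hess (amWeight u) x = rk1 (2 * deriv ω s) (4 * deriv (deriv ω) s) x := by
      rw [hess_congr (H2 x hxc (by rw [hxn]; exact hps.ne'))]
      have h1 : ∀ᶠ t in nhds (‖x‖ ^ 2), HasDerivAt ω (deriv ω t) t := by
        rw [hxn]
        filter_upwards [(hω2 s hs).eventually (by norm_num)] with t ht
        exact (ht.differentiableAt (by norm_num)).hasDerivAt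
      have h2 : HasDerivAt (deriv ω) (deriv (deriv ω) s) (‖x‖ ^ 2) := by
        rw [hxn]
        have h3 : ContDiffAt ℝ 1 (deriv ω) s := (hω2 s hs).derivWithin (by norm_num)
        exact (h3.differentiableAt (by norm_num)).hasDerivAt
      rw [hess_radial ω (deriv ω) (deriv (deriv ω) s) x h1 h2, hxn]
      rfl
    unfold amOp at hAMx
    rw [hw, H1 x hxc, hxn] at hAMx
    have ha : 2 * p s ≠ 0 := by positivity
    have hsum : ∑ i, x i ^ 2 = s := by rw [sum_sq_eq_norm_sq, hxn]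
    have hab : 2 * p s + 4 * q s * ∑ i, x i ^ 2 ≠ 0 := by
      rw [hsum]
      have : 0 < 2 * p s + 4 * q s * s := by linarith
      exact this.ne'
    have hdet : (rk1 (2 * p s) (4 * q s) x).det ≠ 0 := by
      have h1 := (hpos x hs.2).det_pos
      rw [H1 x hxc, hxn] at h1
      exact h1.ne'
    rw [inv_rk1 _ _ _ ha hab] at hAMx
    simp only [Matrix.smul_apply, smul_eq_mul, mul_assoc] at hAMx
    simp only [← Finset.mul_sum] at hAMx
    rcases mul_eq_zero.mp hAMx with h1 | h1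
    · exact absurd h1 hdet
    · simp only [← mul_assoc] at h1
      rw [contract_rk1, hsum] at h1
      have h3 : 2 * p s + 4 * q s * s ≠ 0 := by rw [hsum] at hab; exact hab
      field_simp at h1
      push_cast at h1
      have hp' : p s ≠ 0 := hps.ne'
      have : p s * (deriv ω s * (((m : ℝ) + 2) * p s + 2 * ((m : ℝ) + 1) * q s * s)
          + 2 * s * p s * deriv (deriv ω) s) = 0 := by
        linear_combination (p s / 4) * h1
      rcases mul_eq_zero.mp this with h4 | h4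
      · exact absurd h4 hp'
      · exact h4
  have hcore := radial_core m e he φ S hφS hSconv h0S hS0 hp hpq hEq
  refine ⟨p 0, φ 0, hp 0 h0S, fun x hx => ?_⟩
  have hxS : ‖x‖ ^ 2 ∈ S := by
    refine ⟨by positivity, ?_⟩
    rw [mem_eball_zero_iff] at hx ⊢
    rw [norm_single_sqrt, Real.sqrt_sq (norm_nonneg x)]
    exact hx
  exact hcore _ hxS

end Vale.Agent.Lib.P252
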